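import Vale.Agent.P254.FewSlabs.Pins
import Vale.Agent.P254.MidpointPL

/-!
P254, few slabs: Vaaler's theorem that central sections of the cube have volume at least one,
from the peakedness of the cube.
-/

noncomputable section

open MeasureTheory Set Filter Topology
open scoped ENNReal RealInnerProductSpace Pointwise

namespace Vale.Agent.P254.FewSlabs

namespace VaalerAux

variable {n N : ℕ}

/-- An isometric coordinate system adapted to the frame. -/
lemma exists_coords (u : Fin N → Fin n → ℝ) (hu : IsFrame u) :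
    ∃ (k : ℕ) (Φ : (Fin n → ℝ) × (Fin k → ℝ) → (Fin N → ℝ)) (Ψ : (Fin k → ℝ) → (Fin N → ℝ)),
      MeasurePreserving Φ volume volume ∧ MeasurableEmbedding Φ ∧
      (∀ p, ∑ i, Φ p i ^ 2 = ∑ j, p.1 j ^ 2 + ∑ l, p.2 l ^ 2) ∧
      (∀ p q (s t : ℝ), Φ (s • p + t • q) = s • Φ p + t • Φ q) ∧
      (∀ p i, Φ p i = ∑ j, u i j * p.1 j + Ψ p.2 i) ∧ Function.Surjective Φ := by
  classical
  set c : Fin n → EuclideanSpace ℝ (Fin N) := fun j => WithLp.toLp 2 fun i => u i j with hc
  have hon : Orthonormal ℝ c := by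
    rw [orthonormal_iff_ite]
    intro j k
    rw [← hu j k, hc, PiLp.inner_apply]
    exact Finset.sum_congr rfl fun i _ => by simp [mul_comm]
  have hnN : n ≤ N := by
    simpa using hon.linearIndependent.fintype_card_le_finrank
  set k := N - n with hk
  set v : Fin n ⊕ Fin k → EuclideanSpace ℝ (Fin N) := Sum.elim c fun _ => 0 with hv
  have hres : Orthonormal ℝ ((range (Sum.inl : Fin n → Fin n ⊕ Fin k)).domRestrict v) := by
    rw [orthonormal_iff_ite]
    rintro ⟨_, a, rfl⟩ ⟨_, b, rfl⟩
    simpa [Set.domRestrict, hv, Subtype.ext_iff, Sum.inl.injEq] using (orthonormal_iff_ite.1 hon a b)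
  obtain ⟨b, hb⟩ := hres.exists_orthonormalBasis_extension_of_card_eq
    (by simp [hk, Nat.add_sub_cancel' hnN])
  set glue : (Fin n → ℝ) × (Fin k → ℝ) → EuclideanSpace ℝ (Fin n ⊕ Fin k) :=
    fun p => WithLp.toLp 2 (Sum.elim p.1 p.2) with hglue
  have hge : glue = WithLp.toLp 2 ∘
      (MeasurableEquiv.sumPiEquivProdPi fun _ : Fin n ⊕ Fin k => ℝ).symm := by
    funext p
    refine congrArg (WithLp.toLp 2) (funext fun i => ?_)
    cases i <;> rfl
  refine ⟨k, fun p => WithLp.ofLp (b.repr.symm (glue p)),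
    fun w => WithLp.ofLp (b.repr.symm (glue (0, w))), ?_, ?_, ?_, ?_, ?_, ?_⟩
  · exact (PiLp.volume_preserving_ofLp (Fin N)).comp (b.repr.symm.measurePreserving.comp
      (hge ▸ (PiLp.volume_preserving_toLp (Fin n ⊕ Fin k)).comp
        (volume_measurePreserving_sumPiEquivProdPi_symm fun _ : Fin n ⊕ Fin k => ℝ)))
  · exact (MeasurableEquiv.toLp 2 (Fin N → ℝ)).symm.measurableEmbedding.comp
      (b.repr.symm.toHomeomorph.measurableEmbedding.comp (hge ▸
        (MeasurableEquiv.toLp 2 (Fin n ⊕ Fin k → ℝ)).measurableEmbedding.comp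
        (MeasurableEquiv.sumPiEquivProdPi fun _ : Fin n ⊕ Fin k => ℝ).symm.measurableEmbedding))
  · intro p
    have h := congrArg (· ^ 2) (b.repr.symm.norm_map (glue p))
    simp only [EuclideanSpace.real_norm_sq_eq] at h
    rw [h, Fintype.sum_sum_type]
    simp [hglue]
  · intro p q s t
    have e : glue (s • p + t • q) = s • glue p + t • glue q := by
      ext i; cases i <;> simp [hglue]
    simp [e]
  · intro p i
    have e : ∀ q, WithLp.ofLp (b.repr.symm (glue q)) i
        = ∑ j, u i j * q.1 j + ∑ l, q.2 l * b (Sum.inr l) i := by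
      intro q
      rw [← b.sum_repr_symm]
      simp only [WithLp.ofLp_sum, WithLp.ofLp_smul, Finset.sum_apply, Pi.smul_apply, smul_eq_mul]
      rw [Fintype.sum_sum_type]
      congr 1
      refine Finset.sum_congr rfl fun j _ => ?_
      rw [hb (Sum.inl j) ⟨j, rfl⟩]
      simp [hglue, hv, hc, mul_comm]
    show WithLp.ofLp (b.repr.symm (glue p)) i
      = ∑ j, u i j * p.1 j + WithLp.ofLp (b.repr.symm (glue (0, p.2))) i
    rw [e, e]
    simp
  · intro x
    set z := WithLp.ofLp (b.repr (WithLp.toLp 2 x)) with hz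
    refine ⟨(fun j => z (Sum.inl j), fun l => z (Sum.inr l)), ?_⟩
    have : glue (fun j => z (Sum.inl j), fun l => z (Sum.inr l)) = b.repr (WithLp.toLp 2 x) := by
      ext i; cases i <;> simp [hglue, hz]
    simp [this]

lemma isBounded_body {u : Fin N → Fin n → ℝ} (hu : IsFrame u) (t : ℝ) {y : Fin n → ℝ}
    (hy : ∀ i, |∑ j, u i j * y j| ≤ t) (j : Fin n) : |y j| ≤ ∑ i, |u i j| * t := by
  have : y j = ∑ i, u i j * ∑ l, u i l * y l := by
    simp_rw [Finset.mul_sum, ← mul_assoc]
    rw [Finset.sum_comm]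
    simp_rw [← Finset.sum_mul, hu j]
    simp
  rw [this]
  exact (Finset.abs_sum_le_sum_abs _ _).trans (Finset.sum_le_sum fun i _ => by
    rw [abs_mul]; exact mul_le_mul_of_nonneg_left (hy i) (abs_nonneg _))

lemma isClosed_body (u : Fin N → Fin n → ℝ) : IsClosed (body u) := by
  rw [body, show {y : Fin n → ℝ | ∀ i, |∑ j, u i j * y j| ≤ 1}
    = ⋂ i, {y | |∑ j, u i j * y j| ≤ 1} by ext y; simp]
  exact isClosed_iInter fun i => isClosed_le (by fun_prop) continuous_const

lemma isCompact_body {u : Fin N → Fin n → ℝ} (hu : IsFrame u) : IsCompact (body u) := by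
  refine (isCompact_univ_pi fun j => isCompact_Icc (a := -∑ i, |u i j| * 1)
    (b := ∑ i, |u i j| * 1)).of_isClosed_subset (isClosed_body u) fun y hy j _ => ?_
  exact abs_le.1 (isBounded_body hu 1 hy j)

lemma gauss_univ (n : ℕ) :
    ∫⁻ y : Fin n → ℝ, ENNReal.ofReal (Real.exp (-(Real.pi * ∑ j, y j ^ 2))) = 1 := by
  have e : ∀ y : Fin n → ℝ, Real.exp (-(Real.pi * ∑ j, y j ^ 2))
      = ∏ j, Real.exp (-Real.pi * y j ^ 2) := fun y => by
    rw [← Real.exp_sum, ← Finset.mul_sum, neg_mul]
  simp only [e]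
  have h1 : Integrable fun t : ℝ => Real.exp (-Real.pi * t ^ 2) :=
    integrable_exp_neg_mul_sq Real.pi_pos
  have h2 : Integrable (fun y : Fin n → ℝ => ∏ j, Real.exp (-Real.pi * y j ^ 2)) volume := by
    rw [volume_pi]
    exact Integrable.fintype_prod fun _ => h1
  rw [← ofReal_integral_eq_lintegral_ofReal h2
      (Eventually.of_forall fun y => Finset.prod_nonneg fun j _ => (Real.exp_pos _).le),
    integral_fintype_prod_volume_eq_pow (fun t : ℝ => Real.exp (-Real.pi * t ^ 2)), integral_gaussian,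
    div_self Real.pi_ne_zero, Real.sqrt_one, one_pow, ENNReal.ofReal_one]

/-- The central section has at least the Gaussian mass of a thin slab. -/
lemma one_le_half (hP : Peaked) {u : Fin N → Fin n → ℝ} (hu : IsFrame u) :
    1 ≤ volume {y : Fin n → ℝ | ∀ i, |∑ j, u i j * y j| ≤ 1 / 2} := by
  obtain ⟨k, Φ, Ψ, hmp, hemb, hnorm, hlin, hΦ, hsurj⟩ := exists_coords u hu
  set S : (Fin k → ℝ) → Set (Fin n → ℝ) := fun w => {y | Φ (y, w) ∈ cube N} with hS
  have hΨ0 : ∀ i, Ψ 0 i = 0 := fun i => by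
    have h1 := congrFun (hlin (0, 0) (0, 0) 0 0) i
    have h2 := hΦ (0, 0) i
    simp at h1 h2
    rw [Prod.mk_zero_zero, h1] at h2
    exact h2.symm
  have hS0 : S 0 = {y : Fin n → ℝ | ∀ i, |∑ j, u i j * y j| ≤ 1 / 2} := by
    ext y
    simp only [hS, cube, Set.mem_ofPred_eq, Set.mem_Icc, Pi.le_def, hΦ, hΨ0, add_zero, abs_le,
      ← forall_and]
  have hcube : MeasurableSet (cube N) := measurableSet_Icc
  have hmemS : ∀ w y, y ∈ S w ↔ Φ (y, w) ∈ cube N := fun _ _ => Iff.rfl
  have hSm : ∀ w, MeasurableSet (S w) := fun w =>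
    (hmp.measurable.comp (measurable_id.prodMk measurable_const)) hcube
  -- all sections lie in one box
  set r : ℝ := (N : ℝ) + 1 with hr
  have hbox : ∀ w y, y ∈ S w → y ∈ univ.pi fun _ : Fin n => Icc (-r) r := fun w y hy j _ => by
    have hq : ∀ i, Φ (y, w) i ^ 2 ≤ 1 := fun i => by
      have h1 : -(1 / 2 : ℝ) ≤ Φ (y, w) i := hy.1 i
      have h2 : Φ (y, w) i ≤ 1 / 2 := hy.2 i
      nlinarith
    have h3 : y j ^ 2 ≤ (N : ℝ) := by
      calc y j ^ 2 ≤ ∑ j, y j ^ 2 + ∑ l, w l ^ 2 :=
            (Finset.single_le_sum (fun j _ => sq_nonneg (y j)) (Finset.mem_univ j)).trans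
              (le_add_of_nonneg_right (Finset.sum_nonneg fun l _ => sq_nonneg _))
        _ = ∑ i, Φ (y, w) i ^ 2 := (hnorm (y, w)).symm
        _ ≤ ∑ _i : Fin N, (1 : ℝ) := Finset.sum_le_sum fun i _ => hq i
        _ = N := by simp
    exact abs_le.1 (abs_le_of_sq_le_sq (by nlinarith) (by positivity))
  -- the central section is the largest
  have hmid : ∀ w, volume (S w) ≤ volume (S 0) := fun w => by
    have hneg : volume (S (-w)) = volume (S w) := by
      have : S (-w) = -S w := by
        ext y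
        rw [Set.mem_neg, hmemS, hmemS]
        have h1 : Φ (-y, w) = -Φ (y, -w) := by
          have := hlin (y, -w) (y, -w) (-1) 0
          simpa using this
        rw [h1, cube, Set.mem_Icc, Set.mem_Icc, Pi.le_def, Pi.le_def, Pi.le_def, Pi.le_def]
        simp only [Pi.neg_apply, ← forall_and]
        exact forall_congr' fun i => ⟨fun h => ⟨by linarith [h.2], by linarith [h.1]⟩,
          fun h => ⟨by linarith [h.2], by linarith [h.1]⟩⟩
      rw [this, Measure.measure_neg]
    have hle : ∀ v x, (S v).indicator (fun _ => (1 : ℝ≥0∞)) x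
        ≤ (univ.pi fun _ : Fin n => Icc (-r) r).indicator (fun _ => (1 : ℝ≥0∞)) x := fun v x =>
      indicator_le_indicator_of_subset (hbox v) (fun _ => zero_le_one) x
    have h := pi_mul_le_sq r (f := (S w).indicator fun _ => (1 : ℝ≥0∞))
      (g := (S (-w)).indicator fun _ => 1) (h := (S 0).indicator fun _ => 1) ENNReal.one_ne_top
      (measurable_const.indicator (hSm _)) (measurable_const.indicator (hSm _))
      (measurable_const.indicator (hSm _)) (hle _) (hle _) (hle _) fun x y => by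
        by_cases hx : x ∈ S w
        swap
        · simp [indicator_of_notMem hx]
        by_cases hy : y ∈ S (-w)
        swap
        · simp [indicator_of_notMem hy]
        have hm : (fun i => (x i + y i) / 2) ∈ S 0 := by
          rw [hmemS] at hx hy ⊢
          have e : Φ (fun i => (x i + y i) / 2, 0) = (1 / 2 : ℝ) • Φ (x, w) + (1 / 2 : ℝ) • Φ (y, -w) := by
            rw [← hlin]
            congr 1
            ext i <;> simp; ring
          rw [e]
          exact (convex_Icc _ _) hx hy (by norm_num) (by norm_num) (by norm_num)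
        simp [indicator_of_mem hx, indicator_of_mem hy, indicator_of_mem hm]
    rw [lintegral_indicator_const (hSm _), lintegral_indicator_const (hSm _),
      lintegral_indicator_const (hSm _), one_mul, one_mul, one_mul, hneg, ← sq] at h
    exact not_lt.1 fun hlt => not_lt.2 h (ENNReal.pow_right_strictMono two_ne_zero hlt)
  -- thin slabs
  refine le_of_tendsto (b := volume {y : Fin n → ℝ | ∀ i, |∑ j, u i j * y j| ≤ 1 / 2})
    (f := fun e : ℝ => ENNReal.ofReal (Real.exp (-(Real.pi * (k * e ^ 2))))) (x := 𝓝[>] 0) ?_ ?_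
  · have : Continuous fun e : ℝ => ENNReal.ofReal (Real.exp (-(Real.pi * (k * e ^ 2)))) :=
      ENNReal.continuous_ofReal.comp (by fun_prop)
    simpa using (this.tendsto 0).mono_left (nhdsWithin_le_nhds (s := Ioi (0 : ℝ)))
  refine eventually_nhdsWithin_of_forall fun e (he : 0 < e) => ?_
  rw [← hS0]
  set C : Set (Fin k → ℝ) := Icc (fun _ => -e) (fun _ => e) with hC
  have hCm : MeasurableSet C := measurableSet_Icc
  have hCV : volume C ≠ 0 ∧ volume C ≠ ∞ := by
    rw [hC, Real.volume_Icc_pi]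
    exact ⟨Finset.prod_ne_zero_iff.2 fun i _ => (ENNReal.ofReal_pos.2 (by linarith)).ne',
      ENNReal.prod_ne_top fun i _ => ENNReal.ofReal_ne_top⟩
  set A : Set (Fin N → ℝ) := Φ '' (univ ×ˢ C) with hA
  have hinj := hemb.injective
  have hpre : ∀ B, Φ ⁻¹' (Φ '' B) = B := fun B => hinj.preimage_image B
  let L : ((Fin n → ℝ) × (Fin k → ℝ)) ≃ₗ[ℝ] (Fin N → ℝ) := LinearEquiv.ofBijective
    { toFun := Φ
      map_add' := fun p q => by simpa using hlin p q 1 1
      map_smul' := fun s p => by simpa using hlin p p s 0 } ⟨hinj, hsurj⟩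
  have hAc : IsClosed A :=
    L.toContinuousLinearEquiv.toHomeomorph.isClosedMap _ (isClosed_univ.prod isClosed_Icc)
  have hAv : Convex ℝ A := (convex_univ.prod (convex_Icc _ _)).linear_image L.toLinearMap
  have hAs : ∀ x ∈ A, -x ∈ A := by
    rintro _ ⟨p, hp, rfl⟩
    refine ⟨-p, ⟨mem_univ _, ?_⟩, L.map_neg p⟩
    obtain ⟨h1, h2⟩ := hp.2
    exact ⟨fun l => by have := h2 l; simp only [Prod.snd_neg, Pi.neg_apply]; linarith,
      fun l => by have := h1 l; simp only [Prod.snd_neg, Pi.neg_apply]; linarith⟩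
  have hkey := hP N A hAc hAv hAs
  rw [← hmp.setLIntegral_comp_preimage_emb hemb, hA, hpre,
    ← hmp.measure_preimage_emb hemb, preimage_inter, hpre] at hkey
  have hcp : MeasurableSet ((univ ×ˢ C) ∩ Φ ⁻¹' cube N) :=
    (MeasurableSet.univ.prod hCm).inter (hmp.measurable hcube)
  rw [Measure.volume_eq_prod, Measure.prod_apply_symm hcp] at hkey
  have hup : (∫⁻ w, volume ((fun y => (y, w)) ⁻¹' ((univ ×ˢ C) ∩ Φ ⁻¹' cube N)))
      ≤ volume C * volume (S 0) := by
    calc (∫⁻ w, volume ((fun y => (y, w)) ⁻¹' ((univ ×ˢ C) ∩ Φ ⁻¹' cube N)))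
        ≤ ∫⁻ w, C.indicator (fun _ => volume (S 0)) w := lintegral_mono fun w => by
          by_cases hw : w ∈ C
          · rw [indicator_of_mem hw]
            exact (measure_mono fun y hy => hy.2).trans (hmid w)
          · rw [indicator_of_notMem hw]
            exact le_of_eq (measure_mono_null (fun y hy => hw hy.1.2) measure_empty)
      _ = volume C * volume (S 0) := by rw [lintegral_indicator_const hCm, mul_comm]
  have hlow : volume C * ENNReal.ofReal (Real.exp (-(Real.pi * (k * e ^ 2))))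
      ≤ ∫⁻ p in univ ×ˢ C, ENNReal.ofReal (Real.exp (-(Real.pi * ∑ i, Φ p i ^ 2)))
        ∂((volume : Measure (Fin n → ℝ)).prod volume) := by
    simp only [hnorm, mul_add, neg_add, Real.exp_add,
      ENNReal.ofReal_mul (Real.exp_pos _).le]
    rw [← Measure.prod_restrict, Measure.restrict_univ, lintegral_prod_mul
      (f := fun y : Fin n → ℝ => ENNReal.ofReal (Real.exp (-(Real.pi * ∑ j, y j ^ 2))))
      (g := fun w : Fin k → ℝ => ENNReal.ofReal (Real.exp (-(Real.pi * ∑ l, w l ^ 2))))
      (Measurable.aemeasurable (by fun_prop)) (Measurable.aemeasurable (by fun_prop)),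
      gauss_univ, one_mul, mul_comm, ← setLIntegral_const]
    refine setLIntegral_mono' hCm fun w hw => ENNReal.ofReal_le_ofReal (Real.exp_le_exp.2 ?_)
    refine neg_le_neg (mul_le_mul_of_nonneg_left ?_ Real.pi_pos.le)
    calc ∑ l, w l ^ 2 ≤ ∑ _l : Fin k, e ^ 2 := Finset.sum_le_sum fun l _ => by
          have h1 : -e ≤ w l := hw.1 l
          have h2 : w l ≤ e := hw.2 l
          nlinarith
      _ = k * e ^ 2 := by simp
  exact (ENNReal.mul_le_mul_iff_right hCV.1 hCV.2).1 ((hlow.trans hkey).trans hup)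

end VaalerAux

/-- Vaaler's theorem, from the peakedness of the cube. -/
theorem vaaler_of_peaked (hP : Peaked) : Vaaler := by
  intro n N u hu
  have h := VaalerAux.one_le_half hP hu
  have e : body u = (2 : ℝ) • {y : Fin n → ℝ | ∀ i, |∑ j, u i j * y j| ≤ 1 / 2} := by
    ext y
    rw [Set.mem_smul_set_iff_inv_smul_mem₀ two_ne_zero]
    simp only [body, Set.mem_ofPred_eq, Pi.smul_apply, smul_eq_mul]
    refine forall_congr' fun i => ?_
    have : ∑ j, u i j * ((2 : ℝ)⁻¹ * y j) = 2⁻¹ * ∑ j, u i j * y j := by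
      rw [Finset.mul_sum]; exact Finset.sum_congr rfl fun j _ => by ring
    rw [this, abs_mul, abs_of_pos (show (0 : ℝ) < 2⁻¹ by norm_num)]
    constructor <;> intro h <;> linarith
  have h2 : ENNReal.ofReal ((2 : ℝ) ^ n) ≤ volume (body u) := by
    rw [e, Measure.addHaar_smul_of_nonneg _ two_pos.le, Module.finrank_fin_fun]
    exact le_mul_of_one_le_right' h
  have := ENNReal.toReal_mono (VaalerAux.isCompact_body hu).measure_lt_top.ne h2
  rwa [ENNReal.toReal_ofReal (by positivity)] at this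

end Vale.Agent.P254.FewSlabs
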