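import Vale.Agent.P254.FewSlabs.Pins
import Vale.Agent.P254.SquareBM
import Vale.Agent.P254.SquareBasic
import Vale.Agent.P254.Affine

/-!
P254, few slabs: a symmetric convex body inside the slab `|w · y| ≤ 1` has second moment at most a
third in that direction.
-/

noncomputable section

open MeasureTheory Set
open scoped ENNReal Pointwise

namespace Vale.Agent.P254.FewSlabs

variable {m : ℕ} {K : Set (Fin (m + 1) → ℝ)}

/-- The slices of a symmetric convex body shrink away from the centre. -/
lemma slice_volume_anti (hK : IsCompact K) (hconv : Convex ℝ K) (hsym : ∀ x ∈ K, -x ∈ K)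
    (i : Fin (m + 1)) {u v : ℝ} (h : |u| ≤ |v|) :
    volume (slice K i v) ≤ volume (slice K i u) := by
  rcases eq_or_ne v 0 with rfl | hv
  · rw [abs_zero, abs_nonpos_iff] at h
    rw [h]
  set t := u / v with ht
  have htv : t * v = u := div_mul_cancel₀ u hv
  have ht1 : |t| ≤ 1 := by
    rw [ht, abs_div, div_le_one (abs_pos.2 hv)]; exact h
  obtain ⟨ht0, ht1⟩ := abs_le.1 ht1
  set l := (1 + t) / 2 with hl
  set μ := (1 - t) / 2 with hμ
  have hlμ : l + μ = 1 := by rw [hl, hμ]; ring
  have hmix : ∀ z ∈ slice K i v, ∀ w ∈ slice K i v, l • z + μ • (-w) ∈ slice K i u := by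
    intro z hz w hw
    have e : l • i.insertNth v z + μ • (-i.insertNth v w) = i.insertNth u (l • z + μ • (-w)) := by
      funext j
      refine Fin.succAboveCases i ?_ (fun s => ?_) j
      · simp [← htv, hl, hμ]; ring
      · simp
    show i.insertNth u (l • z + μ • (-w)) ∈ K
    exact e ▸ hconv hz (hsym _ hw) (by linarith) (by linarith) hlμ
  rcases (slice K i v).eq_empty_or_nonempty with h0 | ⟨a, ha⟩
  · simp [h0]
  obtain rfl | hm := eq_or_ne m 0
  · refine measure_mono fun z _ => ?_
    have := hmix a ha a ha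
    rwa [Subsingleton.elim z (l • a + μ • (-a))]
  set A := slice K i v with hA
  set C := slice K i u with hC
  have hAk : IsCompact A := isCompact_slice hK i v
  have hCk : IsCompact C := isCompact_slice hK i u
  have hAc : Convex ℝ A := by
    intro z hz w hw p q hp hq hpq
    have e : p • i.insertNth v z + q • i.insertNth v w = i.insertNth v (p • z + q • w) := by
      funext j
      refine Fin.succAboveCases i ?_ (fun s => ?_) j
      · simp [← add_mul, hpq]
      · simp
    show i.insertNth v (p • z + q • w) ∈ K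
    exact e ▸ hconv hz hw hp hq hpq
  rcases eq_or_ne (volume A) 0 with hA0 | hA0
  · simp [hA0]
  have hApos : 0 < (volume A).toReal := ENNReal.toReal_pos hA0 hAk.measure_lt_top.ne
  set r := (volume A).toReal ^ ((m : ℝ)⁻¹) with hr
  have hrm : r ^ m = (volume A).toReal := Real.rpow_inv_natCast_pow hApos.le hm
  set P := (fun z => -a + z) '' A with hP
  set Q := (fun z => a + z) '' (-A) with hQ
  set D := (fun z => (μ - l) • a + z) '' C with hD
  have hvol : ∀ (c : Fin m → ℝ) (S : Set (Fin m → ℝ)),
      volume ((fun z => c + z) '' S) = volume S := fun c S => by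
    rw [Set.image_add_left, measure_preimage_add]
  have hb := brunn_minkowski (A := P) (B := Q) (C := D) (a := r) (b := r) (l := l) (μ := μ)
    (hAk.image (by fun_prop)) (hAk.neg.image (by fun_prop)) (hCk.image (by fun_prop))
    (hAc.translate _) (hAc.neg.translate _) ⟨a, ha, by simp⟩ ⟨-a, by simpa using ha, by simp⟩
    (Real.rpow_pos_of_pos hApos _) (Real.rpow_pos_of_pos hApos _) (by rw [hP, hvol, hrm])
    (by rw [hQ, hvol, Measure.measure_neg, hrm]) (by linarith) (by linarith) hlμ (by
      rintro _ ⟨z, hz, rfl⟩ _ ⟨w, hw, rfl⟩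
      refine ⟨l • z + μ • w, by simpa using hmix z hz (-w) (Set.mem_neg.1 hw), ?_⟩
      funext j
      simp only [Pi.add_apply, Pi.smul_apply, Pi.neg_apply, smul_eq_mul]
      ring)
  rw [← add_mul, hlμ, one_mul, hrm, hD, hvol] at hb
  exact (ENNReal.toReal_le_toReal hAk.measure_lt_top.ne hCk.measure_lt_top.ne).1 hb

/-- A coordinate bounded by one has second moment at most a third. -/
lemma coord_sq_le (hK : IsCompact K) (hconv : Convex ℝ K) (hsym : ∀ x ∈ K, -x ∈ K)
    (i : Fin (m + 1)) (hb : ∀ x ∈ K, |x i| ≤ 1) :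
    ∫ x in K, x i ^ 2 ≤ (volume K).toReal / 3 := by
  set s : ℝ := Real.sqrt (1 / 3) with hs
  have hs2 : s ^ 2 = 1 / 3 := Real.sq_sqrt (by norm_num)
  set θ := volume (slice K i s) with hθ
  have hθf : θ ≠ ∞ := (isCompact_slice hK i s).measure_lt_top.ne
  set I : ℝ → ℝ≥0∞ := (Icc (-1 : ℝ) 1).indicator fun _ => θ with hI
  set g : ℝ → ℝ≥0∞ := fun u => volume (slice K i u) with hg
  have hg0 : ∀ u : ℝ, u ∉ Icc (-1 : ℝ) 1 → g u = 0 := by
    intro u hu
    refine measure_mono_null (fun z hz => ?_) measure_empty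
    refine (hu (abs_le.1 ?_)).elim
    simpa using hb _ hz
  have hsq : Measurable fun u : ℝ => ENNReal.ofReal (u ^ 2) := by fun_prop
  have hpt : ∀ u, ENNReal.ofReal (u ^ 2) * g u + ENNReal.ofReal (1 / 3) * I u
      ≤ ENNReal.ofReal (1 / 3) * g u + ENNReal.ofReal (u ^ 2) * I u := by
    intro u
    by_cases hu : u ∈ Icc (-1 : ℝ) 1
    swap
    · simp [hg0 u hu, hI, indicator_of_notMem hu]
    have hgf : g u ≠ ∞ := (isCompact_slice hK i u).measure_lt_top.ne
    rw [hI, indicator_of_mem hu]
    rw [← ENNReal.ofReal_toReal hgf, ← ENNReal.ofReal_toReal hθf]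
    simp only [← ENNReal.ofReal_mul (sq_nonneg u),
      ← ENNReal.ofReal_mul (show (0 : ℝ) ≤ 1 / 3 by norm_num)]
    rw [← ENNReal.ofReal_add (by positivity) (by positivity),
      ← ENNReal.ofReal_add (by positivity) (by positivity)]
    refine ENNReal.ofReal_le_ofReal ?_
    have hs0 : |s| = s := abs_of_nonneg (Real.sqrt_nonneg _)
    rcases le_total |u| |s| with h | h
    · have h1 := ENNReal.toReal_mono hgf (slice_volume_anti hK hconv hsym i h)
      have h2 : u ^ 2 ≤ 1 / 3 := by rw [← hs2, ← sq_abs u, ← sq_abs s]; gcongr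
      nlinarith [mul_nonneg (sub_nonneg.2 h2) (sub_nonneg.2 h1)]
    · have h1 := ENNReal.toReal_mono hθf (slice_volume_anti hK hconv hsym i h)
      have h2 : 1 / 3 ≤ u ^ 2 := by rw [← hs2, ← sq_abs u, ← sq_abs s]; gcongr
      nlinarith [mul_nonneg (sub_nonneg.2 h2) (sub_nonneg.2 h1)]
  have hgm : Measurable g := by
    have := measurable_lintegral_slice hK.measurableSet i (Φ := fun _ => 1) measurable_const
    simpa [hg] using this
  have hIm : Measurable I := measurable_const.indicator measurableSet_Icc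
  have hint := lintegral_mono (μ := (volume : Measure ℝ)) hpt
  rw [lintegral_add_left (show Measurable fun u : ℝ => ENNReal.ofReal (u ^ 2) * g u from hsq.mul hgm),
    lintegral_add_left (show Measurable fun u : ℝ => ENNReal.ofReal (1 / 3) * g u from hgm.const_mul _),
    lintegral_const_mul _ hIm, lintegral_const_mul _ hgm] at hint
  have hV : ∫⁻ u, g u = volume K := by
    have := lintegral_coord hK.measurableSet i (φ := fun _ => 1) measurable_const
    simpa [hg] using this.symm
  have hM : ∫⁻ u, ENNReal.ofReal (u ^ 2) * g u = ∫⁻ x in K, ENNReal.ofReal (x i ^ 2) :=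
    (lintegral_coord hK.measurableSet i hsq).symm
  have hI1 : ∫⁻ u, I u = θ * 2 := by
    rw [hI, lintegral_indicator_const measurableSet_Icc, Real.volume_Icc]; norm_num
  have hI2 : ∫⁻ u, ENNReal.ofReal (u ^ 2) * I u = θ * ENNReal.ofReal (2 / 3) := by
    have e : ∀ u, ENNReal.ofReal (u ^ 2) * I u
        = (Icc (-1 : ℝ) 1).indicator (fun u => θ * ENNReal.ofReal (u ^ 2)) u := fun u => by
      by_cases hu : u ∈ Icc (-1 : ℝ) 1 <;> simp [hI, hu, mul_comm]
    simp only [e]
    rw [lintegral_indicator measurableSet_Icc, lintegral_const_mul _ hsq,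
      ← ofReal_integral_eq_lintegral_ofReal
        ((continuous_pow 2).continuousOn.integrableOn_compact isCompact_Icc)
        (Filter.Eventually.of_forall fun u => sq_nonneg u),
      integral_Icc_eq_integral_Ioc, ← intervalIntegral.integral_of_le (by norm_num)]
    norm_num
  rw [hM, hV, hI1, hI2] at hint
  have e2 : ENNReal.ofReal (1 / 3) * (θ * 2) = θ * ENNReal.ofReal (2 / 3) := by
    rw [mul_left_comm, show (2 : ℝ≥0∞) = ENNReal.ofReal 2 by norm_num,
      ← ENNReal.ofReal_mul (by norm_num)]
    norm_num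
  rw [e2] at hint
  have h3 := (ENNReal.add_le_add_iff_right (ENNReal.mul_ne_top hθf ENNReal.ofReal_ne_top)).1 hint
  rw [← ofReal_integral_eq_lintegral_ofReal (f := fun x : Fin (m + 1) → ℝ => x i ^ 2)
    ((show Continuous fun x : Fin (m + 1) → ℝ => x i ^ 2 by fun_prop).continuousOn.integrableOn_compact hK)
    (Filter.Eventually.of_forall fun x => sq_nonneg _)] at h3
  have h4 := ENNReal.toReal_mono (ENNReal.mul_ne_top ENNReal.ofReal_ne_top hK.measure_lt_top.ne) h3
  rw [ENNReal.toReal_ofReal (integral_nonneg fun x => sq_nonneg _), ENNReal.toReal_mul,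
    ENNReal.toReal_ofReal (by norm_num)] at h4
  linarith

/-- A direction bounded by one has second moment at most a third. -/
lemma dir_sq_le {n : ℕ} {K : Set (Fin n → ℝ)} (hK : IsCompact K) (hconv : Convex ℝ K)
    (hsym : ∀ x ∈ K, -x ∈ K) (w : Fin n → ℝ) (hb : ∀ x ∈ K, |∑ j, w j * x j| ≤ 1) :
    ∫ x in K, (∑ j, w j * x j) ^ 2 ≤ (volume K).toReal / 3 := by
  by_cases hw : ∀ j, w j = 0
  · simp [hw]
    positivity
  push Not at hw
  obtain ⟨i, hi⟩ := hw
  obtain ⟨m, rfl⟩ : ∃ m, n = m + 1 := ⟨n - 1, by have := i.2; omega⟩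
  let T : (Fin (m + 1) → ℝ) →ₗ[ℝ] (Fin (m + 1) → ℝ) :=
    { toFun := fun y => Function.update y i (∑ j, w j * y j)
      map_add' := fun x y => by
        funext l
        rcases eq_or_ne l i with rfl | hl
        · simp [mul_add, Finset.sum_add_distrib]
        · simp [hl]
      map_smul' := fun c x => by
        funext l
        rcases eq_or_ne l i with rfl | hl
        · simp [Finset.mul_sum, mul_left_comm]
        · simp [hl] }
  have hTinj : Function.Injective T := by
    intro x y h
    funext l
    have hoff : ∀ j, j ≠ i → x j = y j := fun j hj => by simpa [T, hj] using congrFun h j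
    rcases eq_or_ne l i with rfl | hl
    · have h1 : ∑ j, w j * x j = ∑ j, w j * y j := by simpa [T] using congrFun h l
      rw [← sub_eq_zero, ← Finset.sum_sub_distrib,
        Finset.sum_eq_single l (fun j _ hj => by rw [hoff j hj, sub_self]) (by simp),
        ← mul_sub] at h1
      simpa [hi, sub_eq_zero] using h1
    · exact hoff l hl
  set A : (Fin (m + 1) → ℝ) ≃ᵃ[ℝ] (Fin (m + 1) → ℝ) :=
    (LinearEquiv.ofInjectiveEndo T hTinj).toAffineEquiv with hA
  have hAx : ∀ x, A x = T x := fun x => rfl
  have hKA : IsCompact (A '' K) := hK.image A.toAffineMap.continuous_of_finiteDimensional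
  have hAi : ∀ x, A x i = ∑ j, w j * x j := fun x => by simp [hAx, T]
  have h := coord_sq_le hKA (hconv.affine_image A.toAffineMap) (by
    rintro _ ⟨x, hx, rfl⟩
    exact ⟨-x, hsym x hx, by rw [hAx, hAx, map_neg]⟩) i (by
    rintro _ ⟨x, hx, rfl⟩
    rw [hAi]; exact hb x hx)
  rw [integral_affine_image A hK.measurableSet, volume_affine_image A hK.measurableSet,
    mul_div_assoc] at h
  simp only [hAi] at h
  exact le_of_mul_le_mul_left h (abs_pos.2 (det_linear_ne_zero A))

end Vale.Agent.P254.FewSlabs
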