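import Vale.Agent.P254.FewSlabs.Vaaler
import Vale.Agent.P254.FewSlabs.Moment
import Vale.Agent.P254.Simplex
import Vale.Agent.P254.SquareMain

/-!
P254, few slabs: the isotropic constant of a symmetric convex body filling a fraction
`t ^ n` of a body cut out by `N` slabs is at most `√(N / (12 n)) / t`, and the comparison with the simplex.
-/

noncomputable section

open MeasureTheory Set Matrix
open scoped Nat

namespace Vale.Agent.P254.FewSlabs

variable {n N : ℕ}

lemma body_symm (u : Fin N → Fin n → ℝ) : ∀ x ∈ body u, -x ∈ body u := fun x hx i => by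
  simpa [Finset.sum_neg_distrib] using hx i

lemma body_convex (u : Fin N → Fin n → ℝ) : Convex ℝ (body u) := by
  intro x hx y hy s t hs ht hst i
  have e : ∑ j, u i j * (s • x + t • y) j = s * ∑ j, u i j * x j + t * ∑ j, u i j * y j := by
    rw [Finset.mul_sum, Finset.mul_sum, ← Finset.sum_add_distrib]
    exact Finset.sum_congr rfl fun j _ => by simp; ring
  rw [e]
  calc |s * ∑ j, u i j * x j + t * ∑ j, u i j * y j|
      ≤ s * |∑ j, u i j * x j| + t * |∑ j, u i j * y j| := by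
        refine (abs_add_le _ _).trans (le_of_eq ?_)
        rw [abs_mul, abs_mul, abs_of_nonneg hs, abs_of_nonneg ht]
    _ ≤ s * 1 + t * 1 := add_le_add (mul_le_mul_of_nonneg_left (hx i) hs)
        (mul_le_mul_of_nonneg_left (hy i) ht)
    _ = 1 := by linarith

lemma centroid_eq_zero {K : Set (Fin n → ℝ)} (hsym : ∀ x ∈ K, -x ∈ K) (i : Fin n) :
    centroid K i = 0 := by
  have hpre : (fun x : Fin n → ℝ => -x) ⁻¹' K = K := by
    ext x
    exact ⟨fun hx => by simpa using hsym _ hx, fun hx => hsym x hx⟩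
  have h := (Measure.measurePreserving_neg (volume : Measure (Fin n → ℝ))).setIntegral_preimage_emb
    (MeasurableEquiv.neg (Fin n → ℝ)).measurableEmbedding (fun x => x i) K
  rw [hpre] at h
  simp only [Pi.neg_apply, integral_neg] at h
  rw [centroid, show ∫ x in K, x i = 0 by linarith, mul_zero]

/-- The determinant of a positive semidefinite matrix is at most the power of the mean of its
trace. -/
lemma det_le_trace_pow {A : Matrix (Fin n) (Fin n) ℝ} (hA : A.PosSemidef) (hn : 0 < n) :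
    A.det ≤ (A.trace / n) ^ n := by
  have hl := hA.eigenvalues_nonneg
  have hn0 : (0 : ℝ) < n := by exact_mod_cast hn
  have hd : A.det = ∏ k, hA.1.eigenvalues k := by simpa using hA.1.det_eq_prod_eigenvalues
  have ht : A.trace = ∑ k, hA.1.eigenvalues k := by simpa using hA.1.trace_eq_sum_eigenvalues
  have h := Real.geom_mean_le_arith_mean (s := Finset.univ) (fun _ : Fin n => (1 : ℝ))
    hA.1.eigenvalues (fun _ _ => zero_le_one) (by simpa using hn0) (fun k _ => hl k)
  simp only [Real.rpow_one, one_mul, Finset.sum_const, Finset.card_univ, Fintype.card_fin,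
    nsmul_eq_mul, mul_one] at h
  have h2 := pow_le_pow_left₀ (Real.rpow_nonneg (Finset.prod_nonneg fun k _ => hl k) _) h n
  rw [Real.rpow_inv_natCast_pow (Finset.prod_nonneg fun k _ => hl k) hn.ne', ← hd, ← ht] at h2
  exact h2

/-- The estimate in the position where the directions decompose the identity. -/
lemma ratio_le (hV : Vaaler) (hn : 0 < n) (u : Fin N → Fin n → ℝ) (hu : IsFrame u)
    {K : Set (Fin n → ℝ)} (hKc : IsCompact K) (hconv : Convex ℝ K) (hsym : ∀ x ∈ K, -x ∈ K)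
    (hsub : K ⊆ body u) {t : ℝ} (ht : 0 < t)
    (hfrac : t ^ n * (volume (body u)).toReal ≤ (volume K).toReal) :
    0 ≤ (covMatrix K).det / (volume K).toReal ^ 2 ∧
      (covMatrix K).det / (volume K).toReal ^ 2 ≤ ((N : ℝ) / t ^ 2 / (12 * n)) ^ n := by
  have hvol : t ^ n * 2 ^ n ≤ (volume K).toReal :=
    le_trans (mul_le_mul_of_nonneg_left (hV n N u hu) (by positivity)) hfrac
  set V := (volume K).toReal with hVdef
  have hV0 : 0 < V := lt_of_lt_of_le (by positivity) hvol
  have hint : ∀ f : (Fin n → ℝ) → ℝ, Continuous f → IntegrableOn f K volume := fun f hf =>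
    hf.continuousOn.integrableOn_compact hKc
  have hc := centroid_eq_zero (K := K) hsym
  have hcov : ∀ j k, covMatrix K j k = V⁻¹ * ∫ x in K, x j * x k := fun j k => by
    simp [covMatrix, hc, hVdef]
  have hpsd : (covMatrix K).PosSemidef := by
    refine Matrix.PosSemidef.of_dotProduct_mulVec_nonneg (by
      ext j k; simp [Matrix.conjTranspose_apply, hcov, mul_comm]) fun v => ?_
    have e : star v ⬝ᵥ (covMatrix K *ᵥ v) = V⁻¹ * ∫ x in K, (∑ j, v j * x j) ^ 2 := by
      have e2 : ∀ x : Fin n → ℝ, (∑ j, v j * x j) ^ 2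
          = ∑ j, ∑ k, v j * v k * (x j * x k) := fun x => by
        rw [sq, Finset.sum_mul_sum]
        exact Finset.sum_congr rfl fun j _ => Finset.sum_congr rfl fun k _ => by ring
      simp only [e2]
      rw [integral_finsetSum _ fun j _ => integrable_finsetSum _ fun k _ =>
        hint _ (by fun_prop)]
      simp only [dotProduct, Matrix.mulVec, star_trivial, hcov, Finset.mul_sum]
      refine Finset.sum_congr rfl fun j _ => ?_
      rw [integral_finsetSum _ fun k _ => hint _ (by fun_prop), Finset.mul_sum]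
      exact Finset.sum_congr rfl fun k _ => by rw [integral_const_mul]; ring
    rw [e]
    exact mul_nonneg (inv_nonneg.2 hV0.le) (integral_nonneg fun x => sq_nonneg _)
  have htr : (covMatrix K).trace ≤ (N : ℝ) / 3 := by
    have hfr : ∀ x : Fin n → ℝ, ∑ i, (∑ j, u i j * x j) ^ 2 = ∑ j, x j * x j := by
      intro x
      calc ∑ i, (∑ j, u i j * x j) ^ 2
          = ∑ i, ∑ j, ∑ k, u i j * u i k * (x j * x k) := Finset.sum_congr rfl fun i _ => by
            rw [sq, Finset.sum_mul_sum]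
            exact Finset.sum_congr rfl fun j _ => Finset.sum_congr rfl fun k _ => by ring
        _ = ∑ j, ∑ k, (∑ i, u i j * u i k) * (x j * x k) := by
            rw [Finset.sum_comm]
            refine Finset.sum_congr rfl fun j _ => ?_
            rw [Finset.sum_comm]
            exact Finset.sum_congr rfl fun k _ => by rw [Finset.sum_mul]
        _ = _ := by simp [hu _ _]
    calc (covMatrix K).trace = V⁻¹ * ∫ x in K, ∑ j, x j * x j := by
          rw [integral_finsetSum _ fun j _ => hint _ (by fun_prop), Finset.mul_sum]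
          exact Finset.sum_congr rfl fun j _ => hcov j j
      _ = V⁻¹ * ∑ i, ∫ x in K, (∑ j, u i j * x j) ^ 2 := by
          rw [← integral_finsetSum _ fun i _ => hint _ (by fun_prop)]
          simp only [hfr]
      _ ≤ V⁻¹ * ∑ _i : Fin N, V / 3 := by
          refine mul_le_mul_of_nonneg_left (Finset.sum_le_sum fun i _ => ?_) (inv_nonneg.2 hV0.le)
          exact dir_sq_le hKc hconv hsym (u i) fun x hx => hsub hx i
      _ = _ := by simp; field_simp
  have hn0 : (0 : ℝ) < n := by exact_mod_cast hn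
  refine ⟨div_nonneg hpsd.det_nonneg (sq_nonneg _), ?_⟩
  calc (covMatrix K).det / V ^ 2
      ≤ ((N : ℝ) / 3 / n) ^ n / (t ^ n * (2 : ℝ) ^ n) ^ 2 := div_le_div₀ (by positivity)
        ((det_le_trace_pow hpsd hn).trans (pow_le_pow_left₀
          (div_nonneg hpsd.trace_nonneg hn0.le) (div_le_div_of_nonneg_right htr hn0.le) n))
        (by positivity) (pow_le_pow_left₀ (by positivity) hvol 2)
    _ = _ := by
        rw [← mul_pow, ← pow_mul, mul_comm n 2, pow_mul, ← div_pow]
        congr 1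
        field_simp
        ring

/-- Every bounded body cut out by slabs is a linear image of one in frame position. -/
lemma exists_position (a : Fin N → Fin n → ℝ)
    (hb : Bornology.IsBounded {x : Fin n → ℝ | ∀ i, |∑ j, a i j * x j| ≤ 1}) :
    ∃ (u : Fin N → Fin n → ℝ) (A : (Fin n → ℝ) ≃ᵃ[ℝ] (Fin n → ℝ)), IsFrame u ∧ A 0 = 0 ∧
      {x : Fin n → ℝ | ∀ i, |∑ j, a i j * x j| ≤ 1} = A '' body u := by
  classical
  set R : Matrix (Fin N) (Fin n) ℝ := Matrix.of a with hR
  set M := Rᵀ * R with hM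
  have hker : ∀ x : Fin n → ℝ, R *ᵥ x = 0 → x = 0 := by
    intro x hx
    by_contra h0
    obtain ⟨C, hC⟩ := hb.exists_norm_le
    have hmem : ∀ t : ℝ, t • x ∈ {x : Fin n → ℝ | ∀ i, |∑ j, a i j * x j| ≤ 1} := fun t i => by
      have h1 : ∑ j, a i j * (t • x) j = t * (R *ᵥ x) i := by
        simp [hR, Matrix.mulVec, dotProduct, Finset.mul_sum, mul_left_comm]
      rw [h1, hx]
      simp
    have h1 := hC _ (hmem ((|C| + 1) / ‖x‖))
    rw [norm_smul, Real.norm_of_nonneg (by positivity), div_mul_cancel₀ _ (norm_ne_zero_iff.2 h0)] at h1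
    linarith [le_abs_self C]
  have hMp : M.PosDef := by
    refine Matrix.PosDef.of_dotProduct_mulVec_pos (by simp [hM, Matrix.IsHermitian]) fun x hx => ?_
    have e : star x ⬝ᵥ (M *ᵥ x) = ∑ i, (R *ᵥ x) i ^ 2 := by
      rw [star_trivial, hM, ← Matrix.mulVec_mulVec, Matrix.dotProduct_mulVec,
        Matrix.vecMul_transpose]
      simp [dotProduct, sq]
    rw [e]
    refine lt_of_le_of_ne (Finset.sum_nonneg fun i _ => sq_nonneg _) fun h => hx (hker x ?_)
    funext i
    simpa using (Finset.sum_eq_zero_iff_of_nonneg fun i _ => sq_nonneg _).1 h.symm i (Finset.mem_univ i)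
  set U : Matrix (Fin n) (Fin n) ℝ := (hMp.1.eigenvectorUnitary : Matrix (Fin n) (Fin n) ℝ) with hU
  set l := hMp.1.eigenvalues with hl
  have hlpos : ∀ k, 0 < l k := hMp.eigenvalues_pos
  have hdiag : Uᵀ * M * U = diagonal l := by
    have h1 := hMp.1.conjStarAlgAut_star_eigenvectorUnitary
    rw [Unitary.conjStarAlgAut_star_apply] at h1
    simpa [hU, hl, star_eq_conjTranspose] using h1
  set T := U * diagonal fun k => 1 / √(l k) with hT
  have hTT : Tᵀ * M * T = 1 := by
    rw [hT, Matrix.transpose_mul, Matrix.diagonal_transpose,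
      show ∀ D : Matrix (Fin n) (Fin n) ℝ, D * Uᵀ * M * (U * D) = D * (Uᵀ * M * U) * D from
        fun D => by simp only [Matrix.mul_assoc],
      hdiag, Matrix.diagonal_mul_diagonal, Matrix.diagonal_mul_diagonal, ← Matrix.diagonal_one]
    congr 1
    funext k
    have := Real.mul_self_sqrt (hlpos k).le
    rw [show ∀ c e : ℝ, 1 / c * e * (1 / c) = e / (c * c) from fun c e => by ring, this,
      div_self (hlpos k).ne']
  have hdet : IsUnit T.det := by
    have h1 := congrArg Matrix.det hTT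
    rw [Matrix.det_mul, Matrix.det_mul, Matrix.det_transpose, Matrix.det_one] at h1
    exact IsUnit.of_mul_eq_one (T.det * M.det) (by linear_combination h1)
  refine ⟨fun i j => (R * T) i j,
    (Matrix.toLinearEquiv' T ((Matrix.isUnit_iff_isUnit_det T).2 hdet).invertible).toAffineEquiv,
    fun j k => ?_, Matrix.mulVec_zero T, ?_⟩
  · have h1 : (R * T)ᵀ * (R * T) = 1 := by
      rw [← hTT, hM, Matrix.transpose_mul]; simp only [Matrix.mul_assoc]
    have h2 := congrFun (congrFun h1 j) k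
    rw [Matrix.mul_apply, Matrix.one_apply] at h2
    exact h2
  · have key : ∀ y i, ∑ j, a i j * (T *ᵥ y) j = ∑ j, (R * T) i j * y j := fun y i => by
      have := congrFun (Matrix.mulVec_mulVec y R T) i
      simpa [Matrix.mulVec, dotProduct, hR] using this
    ext x
    constructor
    · intro hx
      refine ⟨T⁻¹ *ᵥ x, fun i => ?_, ?_⟩
      · rw [← key, Matrix.mulVec_mulVec, Matrix.mul_nonsing_inv _ hdet, Matrix.one_mulVec]
        exact hx i
      · show T *ᵥ (T⁻¹ *ᵥ x) = x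
        rw [Matrix.mulVec_mulVec, Matrix.mul_nonsing_inv _ hdet, Matrix.one_mulVec]
    · rintro ⟨y, hy, rfl⟩ i
      show |∑ j, a i j * (T *ᵥ y) j| ≤ 1
      rw [key]
      exact hy i

/-- The bound for every symmetric convex body filling a fraction `t ^ n` of a bounded body cut out by
`N` slabs that contains it. -/
theorem slabs_bound (hV : Vaaler) (hn : 0 < n) (a : Fin N → Fin n → ℝ)
    (hb : Bornology.IsBounded {x : Fin n → ℝ | ∀ i, |∑ j, a i j * x j| ≤ 1})
    {K : Set (Fin n → ℝ)} (hKc : IsCompact K) (hconv : Convex ℝ K) (hsym : ∀ x ∈ K, -x ∈ K)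
    (hsub : K ⊆ {x : Fin n → ℝ | ∀ i, |∑ j, a i j * x j| ≤ 1}) {t : ℝ} (ht : 0 < t)
    (hfrac : t ^ n * (volume {x : Fin n → ℝ | ∀ i, |∑ j, a i j * x j| ≤ 1}).toReal
      ≤ (volume K).toReal) :
    isoConst K ≤ Real.sqrt ((N : ℝ) / (12 * n)) / t ∧
      (((N : ℝ) / t ^ 2 / (12 * n)) ^ n
          < (n ! : ℝ) ^ 2 / (((n : ℝ) + 1) ^ (n + 1) * ((n : ℝ) + 2) ^ n) →
        ∀ B : (Fin n → ℝ) ≃ᵃ[ℝ] (Fin n → ℝ), isoConst K < isoConst (B '' stdSimplexBody n)) := by
  obtain ⟨u, A, hu, hA0, hKA⟩ := exists_position a hb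
  rw [hKA] at hsub hfrac
  have hn0 : (0 : ℝ) < n := by exact_mod_cast hn
  set K' := A.symm '' K with hK'
  have hK'c : IsCompact K' := hKc.image A.symm.toAffineMap.continuous_of_finiteDimensional
  have hKK : K = A '' K' := by
    rw [hK', ← Set.image_comp]
    simp
  have hneg : ∀ y, A.symm (-y) = -A.symm y := fun y => by
    have h1 : ∀ z, A z = A.linear z := fun z => by simpa [hA0] using A.map_vadd 0 z
    apply A.injective
    rw [A.apply_symm_apply, h1, map_neg, ← h1, A.apply_symm_apply]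
  have hsym' : ∀ x ∈ K', -x ∈ K' := by
    rintro _ ⟨y, hy, rfl⟩
    exact ⟨-y, hsym y hy, hneg y⟩
  have hsub' : K' ⊆ body u := by
    rintro _ ⟨y, hy, rfl⟩
    obtain ⟨z, hz, rfl⟩ := hsub hy
    simpa using hz
  have hd : 0 < |LinearMap.det A.linear.toLinearMap| := abs_pos.2 (det_linear_ne_zero A)
  have hfrac' : t ^ n * (volume (body u)).toReal ≤ (volume K').toReal := by
    rw [hKK, volume_affine_image A hK'c.measurableSet,
      volume_affine_image A (VaalerAux.isCompact_body hu).measurableSet, mul_left_comm] at hfrac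
    exact le_of_mul_le_mul_left hfrac hd
  have hV' : 0 < (volume K').toReal :=
    lt_of_lt_of_le (mul_pos (pow_pos ht n) (lt_of_lt_of_le (by positivity) (hV n N u hu))) hfrac'
  rw [hKK, isoConst_affine A hK'c hV']
  obtain ⟨h0, hle⟩ := ratio_le hV hn u hu hK'c (hconv.affine_image A.symm.toAffineMap) hsym' hsub'
    ht hfrac'
  refine ⟨?_, fun hlt B => ?_⟩
  · rw [isoConst]
    calc ((covMatrix K').det / (volume K').toReal ^ 2) ^ ((1 : ℝ) / (2 * n))
        ≤ (((N : ℝ) / t ^ 2 / (12 * n)) ^ n) ^ ((1 : ℝ) / (2 * n)) :=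
          Real.rpow_le_rpow h0 hle (by positivity)
      _ = Real.sqrt ((N : ℝ) / (12 * n)) / t := by
          rw [← Real.rpow_natCast, ← Real.rpow_mul (by positivity),
            show (n : ℝ) * (1 / (2 * n)) = 1 / 2 by field_simp, ← Real.sqrt_eq_rpow, div_right_comm,
            Real.sqrt_div (by positivity), Real.sqrt_sq ht.le]
  · have hS : IsCompact (stdSimplexBody n) := by
      rw [stdSimplexBody_eq]; exact solidSimplex_compact n 1
    have hSV : 0 < (volume (stdSimplexBody n)).toReal := by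
      rw [(covMatrix_stdSimplexBody n).2]; positivity
    rw [isoConst_affine B hS hSV, isoConst, isoConst]
    refine Real.rpow_lt_rpow h0 (hle.trans_lt (hlt.trans_eq ?_)) (by positivity)
    rw [simplex_base]
    simp [mul_pow]
    field_simp
    ring

/-- The criterion from a bound on `(ρ e² / 12)^n`. -/
lemma crit_of_rate {ρ q : ℝ} (hρ : 0 ≤ ρ) (hq0 : 0 ≤ q) (hq1 : q ≤ 1) {n₀ : ℕ} (hn₀ : 1 ≤ n₀)
    (hq : ρ * 7.3891 / 12 ≤ q) (hnum : 20.09 * ((n₀ : ℝ) + 1) * q ^ n₀ < 6.283 * n₀)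
    (hn : n₀ ≤ n) : (ρ / 12) ^ n * (((n : ℝ) + 1) ^ (n + 1) * ((n : ℝ) + 2) ^ n) < (n ! : ℝ) ^ 2 := by
  have hn1 : (0 : ℝ) < n := by exact_mod_cast (show 0 < n by omega)
  have he2 : Real.exp 1 ^ 2 ≤ 7.3891 := by
    nlinarith [Real.exp_one_lt_d9, Real.exp_pos 1]
  have he3 : Real.exp 1 ^ 3 ≤ 20.09 := by
    nlinarith [Real.exp_one_lt_d9, Real.exp_pos 1]
  have hpow : ∀ c : ℝ, 0 ≤ c → ((n : ℝ) + c) ^ n ≤ (n : ℝ) ^ n * Real.exp c := fun c hc => by
    have h1 : ((n : ℝ) + c) ^ n = (n : ℝ) ^ n * (1 + c / n) ^ n := by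
      rw [← mul_pow]; congr 1; field_simp
    have h2 : (1 + c / n) ^ n ≤ Real.exp c := by
      calc (1 + c / n) ^ n ≤ Real.exp (c / n) ^ n :=
            pow_le_pow_left₀ (by positivity) (by linarith [Real.add_one_le_exp (c / n)]) n
        _ = Real.exp c := by rw [← Real.exp_nat_mul]; congr 1; field_simp
    rw [h1]
    exact mul_le_mul_of_nonneg_left h2 (by positivity)
  have hexp : Real.exp (1 : ℝ) * Real.exp 2 = Real.exp 1 ^ 3 := by
    rw [← Real.exp_add, ← Real.exp_nat_mul]; norm_num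
  have hst := Stirling.le_factorial_stirling n
  have hsq : 2 * Real.pi * n * (((n : ℝ) / Real.exp 1) ^ n) ^ 2 ≤ (n ! : ℝ) ^ 2 := by
    have := pow_le_pow_left₀ (by positivity) hst 2
    rwa [mul_pow, Real.sq_sqrt (by positivity)] at this
  refine lt_of_lt_of_le ?_ hsq
  have h1 : (ρ / 12) ^ n * (((n : ℝ) + 1) ^ (n + 1) * ((n : ℝ) + 2) ^ n)
      ≤ (ρ / 12) ^ n * (((n : ℝ) ^ n) ^ 2 * Real.exp 1 ^ 3 * ((n : ℝ) + 1)) := by
    refine mul_le_mul_of_nonneg_left ?_ (by positivity)
    calc ((n : ℝ) + 1) ^ (n + 1) * ((n : ℝ) + 2) ^ n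
        = ((n : ℝ) + 1) ^ n * ((n : ℝ) + 2) ^ n * ((n : ℝ) + 1) := by ring
      _ ≤ ((n : ℝ) ^ n * Real.exp 1) * ((n : ℝ) ^ n * Real.exp 2) * ((n : ℝ) + 1) :=
          mul_le_mul_of_nonneg_right (mul_le_mul (hpow 1 zero_le_one) (hpow 2 zero_le_two)
            (by positivity) (by positivity)) (by positivity)
      _ = _ := by rw [← hexp]; ring
  refine lt_of_le_of_lt h1 ?_
  have h2 : (ρ * Real.exp 1 ^ 2 / 12) ^ n * Real.exp 1 ^ 3 * ((n : ℝ) + 1) < 2 * Real.pi * n := by
    have hb : (ρ * Real.exp 1 ^ 2 / 12) ^ n ≤ q ^ n₀ :=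
      (pow_le_pow_left₀ (by positivity) ((div_le_div_of_nonneg_right
        (mul_le_mul_of_nonneg_left he2 hρ) (by norm_num)).trans hq) n).trans
        (pow_le_pow_of_le_one hq0 hq1 hn)
    have hn₀' : (1 : ℝ) ≤ n₀ := by exact_mod_cast hn₀
    have hnn : (n₀ : ℝ) ≤ n := by exact_mod_cast hn
    have hq' : 0 ≤ q ^ n₀ := by positivity
    have hc : q ^ n₀ * 20.09 * ((n : ℝ) + 1) * n₀ ≤ q ^ n₀ * 20.09 * ((n₀ : ℝ) + 1) * n := by
      nlinarith [mul_nonneg hq' (sub_nonneg.2 hnn)]
    calc (ρ * Real.exp 1 ^ 2 / 12) ^ n * Real.exp 1 ^ 3 * ((n : ℝ) + 1)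
        ≤ q ^ n₀ * 20.09 * ((n : ℝ) + 1) :=
          mul_le_mul_of_nonneg_right (mul_le_mul hb he3 (by positivity) hq') (by positivity)
      _ < 6.283 * n := by
          rw [← mul_lt_mul_iff_left₀ (show (0 : ℝ) < n₀ by linarith)]
          refine hc.trans_lt ?_
          nlinarith [mul_lt_mul_of_pos_right hnum hn1]
      _ ≤ 2 * Real.pi * n := mul_le_mul_of_nonneg_right (by linarith [Real.pi_gt_d4]) hn1.le
  set X := ((n : ℝ) / Real.exp 1) ^ n with hX
  have e : (ρ / 12) ^ n * (((n : ℝ) ^ n) ^ 2 * Real.exp 1 ^ 3 * ((n : ℝ) + 1))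
      = (ρ * Real.exp 1 ^ 2 / 12) ^ n * Real.exp 1 ^ 3 * ((n : ℝ) + 1) * X ^ 2 := by
    have h3 : (ρ / 12) ^ n * ((n : ℝ) ^ n) ^ 2 = (ρ * Real.exp 1 ^ 2 / 12) ^ n * X ^ 2 := by
      rw [hX, ← pow_mul, ← pow_mul, mul_comm n 2, pow_mul, pow_mul, ← mul_pow, ← mul_pow]
      congr 1
      field_simp
    linear_combination Real.exp 1 ^ 3 * ((n : ℝ) + 1) * h3
  rw [e]
  exact mul_lt_mul_of_pos_right h2 (by positivity)

lemma crit_transfer {x ρ : ℝ} (hx : 0 ≤ x) (hρ : x ≤ ρ * n) (hn : 0 < n)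
    (h : (ρ / 12) ^ n * (((n : ℝ) + 1) ^ (n + 1) * ((n : ℝ) + 2) ^ n) < (n ! : ℝ) ^ 2) :
    (x / (12 * n)) ^ n < (n ! : ℝ) ^ 2 / (((n : ℝ) + 1) ^ (n + 1) * ((n : ℝ) + 2) ^ n) := by
  have hn0 : (0 : ℝ) < n := by exact_mod_cast hn
  rw [lt_div_iff₀ (by positivity)]
  refine lt_of_le_of_lt (mul_le_mul_of_nonneg_right ?_ (by positivity)) h
  refine pow_le_pow_left₀ (by positivity) ?_ n
  rw [div_le_div_iff₀ (by positivity) (by norm_num)]
  nlinarith

/-- The arithmetic conditions under which the simplex wins. -/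
lemma crit_of_few {x : ℝ} (hx : 0 ≤ x) (hn : 2 ≤ n)
    (h : 20 * x ≤ 23 * n ∨ (16 ≤ n ∧ 2 * x ≤ 3 * n) ∨ (80 ≤ n ∧ 5 * x ≤ 8 * n)) :
    (x / (12 * n)) ^ n < (n ! : ℝ) ^ 2 / (((n : ℝ) + 1) ^ (n + 1) * ((n : ℝ) + 2) ^ n) := by
  have hn0 : (0 : ℝ) ≤ n := Nat.cast_nonneg n
  have key : 16 ≤ n ∧ 2 * x ≤ 3 * n ∨ 80 ≤ n ∧ 5 * x ≤ 8 * n ∨ n ≤ 15 ∧ 20 * x ≤ 23 * n := by
    rcases h with h | h | h
    · rcases le_or_gt n 15 with h15 | h15
      · exact Or.inr (Or.inr ⟨h15, h⟩)
      · exact Or.inl ⟨h15, by linarith⟩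
    · exact Or.inl h
    · exact Or.inr (Or.inl h)
  rcases key with ⟨h16, hN⟩ | ⟨h80, hN⟩ | ⟨h15, hN⟩
  · exact crit_transfer (ρ := 3 / 2) hx (by linarith) (by omega)
      (crit_of_rate (q := 0.9237) (n₀ := 16) (by norm_num) (by norm_num) (by norm_num) (by norm_num)
        (by norm_num) (by norm_num) h16)
  · exact crit_transfer (ρ := 8 / 5) hx (by linarith) (by omega)
      (crit_of_rate (q := 0.98522) (n₀ := 80) (by norm_num) (by norm_num) (by norm_num) (by norm_num)
        (by norm_num) (by norm_num) h80)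
  · refine crit_transfer (ρ := 23 / 20) hx (by linarith) (by omega) ?_
    interval_cases n <;> norm_num [Nat.factorial]

end Vale.Agent.P254.FewSlabs
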