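import Mathlib

/-!
P254, few slabs: the statements exchanged between the blocks of the proof that central sections of
the cube in dimension at most three halves of the dimension of the section satisfy the strong
isotropic constant inequality.
-/

noncomputable section

open MeasureTheory Set

namespace Vale.Agent.P254.FewSlabs

/-- The centred unit cube. -/
def cube (N : ℕ) : Set (Fin N → ℝ) := Icc (fun _ => -(1 / 2)) (fun _ => 1 / 2)

/-- The uniform law on the unit cube is more peaked than the Gaussian with density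
`exp (-π ‖x‖ ^ 2)`. -/
def Peaked : Prop := ∀ (N : ℕ) (A : Set (Fin N → ℝ)), IsClosed A → Convex ℝ A → (∀ x ∈ A, -x ∈ A) →
  ∫⁻ x in A, ENNReal.ofReal (Real.exp (-(Real.pi * ∑ i, x i ^ 2))) ≤ volume (A ∩ cube N)

/-- The slabs `|u_i · y| ≤ 1`. -/
def body {n N : ℕ} (u : Fin N → Fin n → ℝ) : Set (Fin n → ℝ) := {y | ∀ i, |∑ j, u i j * y j| ≤ 1}

/-- The vectors `u_i` decompose the identity. -/
def IsFrame {n N : ℕ} (u : Fin N → Fin n → ℝ) : Prop :=
  ∀ j k, ∑ i, u i j * u i k = if j = k then 1 else 0

/-- Vaaler's section theorem in the slab picture. -/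
def Vaaler : Prop := ∀ (n N : ℕ) (u : Fin N → Fin n → ℝ), IsFrame u →
  (2 : ℝ) ^ n ≤ (volume (body u)).toReal

end Vale.Agent.P254.FewSlabs
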