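import Mathlib
import Vale.Agent.P254.MidpointPL
import Vale.Agent.P254.FewSlabs.Pins

/-!
P254, few slabs: the uniform law on the unit cube is more peaked than the Gaussian with density
`exp (-π ‖x‖ ^ 2)`. The coordinates are exchanged one at a time: by the midpoint Prékopa-Leindler
inequality a marginal of an even log-concave function is even and decreases away from zero.
-/

noncomputable section

open MeasureTheory Set Filter Topology
open scoped ENNReal

namespace Vale.Agent.P254.FewSlabs.Peak

/-- Even, midpoint log-concave, upper semicontinuous functions bounded by one. -/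
structure Good {E : Type*} [AddCommGroup E] [Module ℝ E] [TopologicalSpace E] [MeasurableSpace E]
    (F : E → ℝ≥0∞) : Prop where
  meas : Measurable F
  le_one : ∀ x, F x ≤ 1
  even : ∀ x, F (-x) = F x
  mid : ∀ x y, F x * F y ≤ F ((1 / 2 : ℝ) • (x + y)) ^ 2
  usc : ∀ (x : ℕ → E) (a : E), Tendsto x atTop (𝓝 a) →
    limsup (fun k => F (x k)) atTop ≤ F a

/-- A good weight on the line of total mass one. -/
structure Weight (w : ℝ → ℝ≥0∞) : Prop where
  meas : Measurable w
  le_one : ∀ x, w x ≤ 1
  even : ∀ x, w (-x) = w x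
  mid : ∀ x y, w x * w y ≤ w ((x + y) / 2) ^ 2
  mass : ∫⁻ x, w x = 1

/-- The integral against the product of the weights. -/
def K (w : ℝ → ℝ≥0∞) (n : ℕ) (F : (Fin n → ℝ) → ℝ≥0∞) : ℝ≥0∞ :=
  ∫⁻ z, (∏ i, w (z i)) * F z

theorem measurable_prod_w {w : ℝ → ℝ≥0∞} (hw : Weight w) (n : ℕ) :
    Measurable fun z : Fin n → ℝ => ∏ i, w (z i) :=
  Finset.measurable_prod _ fun i _ => hw.meas.comp (measurable_pi_apply i)

theorem measurable_cons {n : ℕ} :
    Measurable fun p : ℝ × (Fin n → ℝ) => (Fin.cons p.1 p.2 : Fin (n + 1) → ℝ) :=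
  measurable_pi_lambda _ (Fin.cases (by simpa using measurable_fst)
    fun j => by simp only [Fin.cons_succ]; exact (measurable_pi_apply j).comp measurable_snd)

theorem continuous_cons {n : ℕ} :
    Continuous fun p : ℝ × (Fin n → ℝ) => (Fin.cons p.1 p.2 : Fin (n + 1) → ℝ) :=
  continuous_pi (Fin.cases (by simpa using continuous_fst)
    fun j => by simpa using (continuous_apply j).comp' continuous_snd)

theorem lintegral_cons {n : ℕ} {u : (Fin (n + 1) → ℝ) → ℝ≥0∞} (hu : Measurable u) :
    ∫⁻ x, u x = ∫⁻ s : ℝ, ∫⁻ z : Fin n → ℝ, u (Fin.cons s z) := by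
  let e := MeasurableEquiv.piFinSuccAbove (fun _ : Fin (n + 1) => ℝ) 0
  have he : MeasurePreserving e volume volume :=
    volume_preserving_piFinSuccAbove (fun _ : Fin (n + 1) => ℝ) 0
  rw [← (he.symm e).lintegral_comp hu, Measure.volume_eq_prod,
    lintegral_prod (fun p => u (e.symm p)) (hu.comp e.symm.measurable).aemeasurable]
  simp [e, Fin.consEquiv]

theorem K_succ {w : ℝ → ℝ≥0∞} (hw : Weight w) {n : ℕ} {F : (Fin (n + 1) → ℝ) → ℝ≥0∞}
    (hF : Measurable F) :
    K w (n + 1) F = ∫⁻ s, w s * K w n fun z => F (Fin.cons s z) := by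
  rw [K, lintegral_cons ((measurable_prod_w hw _).fun_mul hF)]
  refine lintegral_congr fun s => ?_
  rw [K, ← lintegral_const_mul _ (by
    exact (measurable_prod_w hw n).fun_mul
      (hF.comp (measurable_cons.comp (measurable_const.prodMk measurable_id))))]
  refine lintegral_congr fun z => ?_
  simp [Fin.prod_univ_succ, mul_assoc]

theorem K_one {w : ℝ → ℝ≥0∞} (hw : Weight w) : ∀ n, K w n (fun _ => 1) = 1 := by
  intro n
  induction n with
  | zero => simp [K, volume_pi, lintegral_unique]
  | succ n ih => simp [K_succ hw measurable_const, ih, hw.mass]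

theorem K_le_one {w : ℝ → ℝ≥0∞} (hw : Weight w) {n : ℕ} {F : (Fin n → ℝ) → ℝ≥0∞}
    (hF : ∀ x, F x ≤ 1) : K w n F ≤ 1 :=
  (lintegral_mono fun z => mul_le_mul' le_rfl (hF z)).trans (K_one hw n).le

theorem K_even {w : ℝ → ℝ≥0∞} (hw : Weight w) {n : ℕ} {F : (Fin n → ℝ) → ℝ≥0∞}
    (hF : Measurable F) : (K w n fun z => F (-z)) = K w n F := by
  have h := (Measure.measurePreserving_neg (volume : Measure (Fin n → ℝ))).lintegral_comp
    ((measurable_prod_w hw n).fun_mul hF)
  simpa [K, hw.even] using h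

/-- Prékopa-Leindler against the product weight. -/
theorem K_mul_le_sq {w : ℝ → ℝ≥0∞} (hw : Weight w) : ∀ {n : ℕ} {f g h : (Fin n → ℝ) → ℝ≥0∞},
    Measurable f → Measurable g → Measurable h → (∀ x, f x ≤ 1) → (∀ x, g x ≤ 1) →
    (∀ x, h x ≤ 1) → (∀ x y, f x * g y ≤ h ((1 / 2 : ℝ) • (x + y)) ^ 2) →
    K w n f * K w n g ≤ K w n h ^ 2 := by
  intro n
  induction n with
  | zero =>
    intro f g h _ _ _ _ _ _ hfgh
    simp only [K, Finset.univ_eq_empty, Finset.prod_empty, one_mul, lintegral_unique, volume_pi,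
      Measure.pi_empty_univ, mul_one]
    refine (hfgh _ _).trans (le_of_eq ?_)
    congr 2
    exact Subsingleton.elim _ _
  | succ n ih =>
    intro f g h hf hg hh hf1 hg1 hh1 hfgh
    have hm : ∀ u : (Fin (n + 1) → ℝ) → ℝ≥0∞, Measurable u →
        Measurable fun s => w s * K w n fun z => u (Fin.cons s z) := fun u hu =>
      hw.meas.fun_mul (((measurable_prod_w hw n).comp measurable_snd).fun_mul
        (hu.comp measurable_cons)).lintegral_prod_right'
    have hsec : ∀ u : (Fin (n + 1) → ℝ) → ℝ≥0∞, Measurable u → ∀ s,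
        Measurable fun z : Fin n → ℝ => u (Fin.cons s z) :=
      fun u hu s => hu.comp (measurable_cons.comp (measurable_const.prodMk measurable_id))
    rw [K_succ hw hf, K_succ hw hg, K_succ hw hh]
    refine lintegral_mul_le_sq' (hm f hf) (hm g hg) (hm h hh) ENNReal.one_ne_top
      (fun s => mul_le_one' (hw.le_one s) (K_le_one hw fun z => hf1 _))
      (fun s => mul_le_one' (hw.le_one s) (K_le_one hw fun z => hg1 _))
      (fun s => mul_le_one' (hw.le_one s) (K_le_one hw fun z => hh1 _)) fun s t => ?_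
    rw [mul_mul_mul_comm, mul_pow]
    refine mul_le_mul' (hw.mid s t) (ih (hsec f hf s) (hsec g hg t) (hsec h hh _)
      (fun z => hf1 _) (fun z => hg1 _) (fun z => hh1 _) fun x y => ?_)
    refine (hfgh _ _).trans (le_of_eq ?_)
    congr 2
    funext i
    refine Fin.cases ?_ (fun j => ?_) i <;> simp <;> ring

/-- Integrating out all but the first coordinate. -/
theorem good_fst {w : ℝ → ℝ≥0∞} (hw : Weight w) {n : ℕ} {F : (Fin (n + 1) → ℝ) → ℝ≥0∞}
    (hF : Good F) : Good fun s => K w n fun z => F (Fin.cons s z) := by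
  have hsec : ∀ s, Measurable fun z : Fin n → ℝ => F (Fin.cons s z) :=
    fun s => hF.meas.comp (measurable_cons.comp (measurable_const.prodMk measurable_id))
  refine ⟨?_, fun s => K_le_one hw fun z => hF.le_one _, fun s => ?_, fun s t => ?_,
    fun x a hx => ?_⟩
  · exact (((measurable_prod_w hw n).comp measurable_snd).fun_mul
      (hF.meas.comp measurable_cons)).lintegral_prod_right'
  · rw [← K_even hw (hsec s)]
    refine lintegral_congr fun z => ?_
    beta_reduce
    rw [← hF.even (Fin.cons s (-z))]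
    congr 2
    funext i
    refine Fin.cases ?_ (fun j => ?_) i <;> simp
  · refine K_mul_le_sq hw (hsec s) (hsec t) (hsec _) (fun z => hF.le_one _) (fun z => hF.le_one _)
      (fun z => hF.le_one _) fun y z => (hF.mid _ _).trans (le_of_eq ?_)
    congr 2
    funext i
    refine Fin.cases ?_ (fun j => ?_) i <;> simp
    ring
  · refine (limsup_lintegral_le (g := fun z : Fin n → ℝ => ∏ i, w (z i))
      (fun k => (measurable_prod_w hw n).fun_mul (hsec (x k)))
      (fun k => Eventually.of_forall fun z =>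
        mul_le_of_le_one_right zero_le (hF.le_one _)) ?_).trans
      (lintegral_mono fun z => ?_)
    · simpa [K] using (K_one hw n).trans_ne ENNReal.one_ne_top
    · rw [ENNReal.limsup_const_mul_of_ne_top
        (ne_top_of_le_ne_top ENNReal.one_ne_top (Finset.prod_le_one' fun i _ => hw.le_one _))]
      exact mul_le_mul' le_rfl (hF.usc _ _
        ((continuous_cons.tendsto _).comp (hx.prodMk_nhds tendsto_const_nhds)))

/-- Integrating out the first coordinate. -/
theorem good_snd {w : ℝ → ℝ≥0∞} (hw : Weight w) {n : ℕ} {F : (Fin (n + 1) → ℝ) → ℝ≥0∞}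
    (hF : Good F) : Good fun z : Fin n → ℝ => ∫⁻ s, w s * F (Fin.cons s z) := by
  have hsec : ∀ z, Measurable fun s : ℝ => F (Fin.cons s z) :=
    fun z => hF.meas.comp (measurable_cons.comp (measurable_id.prodMk measurable_const))
  have h1 : ∀ z, ∫⁻ s, w s * F (Fin.cons s z) ≤ 1 := fun z =>
    (lintegral_mono fun s => mul_le_of_le_one_right zero_le (hF.le_one _)).trans hw.mass.le
  refine ⟨?_, h1, fun z => ?_, fun y z => ?_, fun x a hx => ?_⟩
  · exact ((hw.meas.comp measurable_fst).fun_mul
      (hF.meas.comp measurable_cons)).lintegral_prod_left'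
  · have h := (Measure.measurePreserving_neg (volume : Measure ℝ)).lintegral_comp
      (hw.meas.fun_mul (hsec (-z)))
    rw [← h]
    refine lintegral_congr fun s => ?_
    rw [hw.even, ← hF.even (Fin.cons s z)]
    congr 2
    funext i
    refine Fin.cases ?_ (fun j => ?_) i <;> simp
  · refine lintegral_mul_le_sq' (hw.meas.fun_mul (hsec y)) (hw.meas.fun_mul (hsec z))
      (hw.meas.fun_mul (hsec _)) ENNReal.one_ne_top
      (fun s => mul_le_one' (hw.le_one s) (hF.le_one _))
      (fun s => mul_le_one' (hw.le_one s) (hF.le_one _))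
      (fun s => mul_le_one' (hw.le_one s) (hF.le_one _)) fun s t => ?_
    rw [mul_mul_mul_comm, mul_pow]
    refine mul_le_mul' (hw.mid s t) ((hF.mid _ _).trans (le_of_eq ?_))
    congr 2
    funext i
    refine Fin.cases ?_ (fun j => ?_) i <;> simp <;> ring
  · refine (limsup_lintegral_le (g := w) (fun k => hw.meas.fun_mul (hsec (x k)))
      (fun k => Eventually.of_forall fun s => mul_le_of_le_one_right zero_le (hF.le_one _))
      (hw.mass.trans_ne ENNReal.one_ne_top)).trans (lintegral_mono fun s => ?_)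
    rw [ENNReal.limsup_const_mul_of_ne_top (ne_top_of_le_ne_top ENNReal.one_ne_top (hw.le_one s))]
    exact mul_le_mul' le_rfl (hF.usc _ _
      ((continuous_cons.tendsto _).comp (tendsto_const_nhds.prodMk_nhds hx)))

/-- A good function on the line decreases away from zero. -/
theorem Good.anti {f : ℝ → ℝ≥0∞} (hf : Good f) {s t : ℝ} (hst : |s| ≤ |t|) : f t ≤ f s := by
  have ht : f |t| = f t := by
    rcases abs_choice t with h | h <;> simp [h, hf.even]
  rw [← ht]
  set S : Set ℝ := {r | f |t| ≤ f r} with hS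
  have hSc : IsClosed S := by
    refine IsSeqClosed.isClosed fun x a hx hxa => ?_
    refine le_trans ?_ (hf.usc x a hxa)
    exact le_limsup_of_frequently_le (Frequently.of_forall hx) (by isBoundedDefault)
  have hmid : ∀ p ∈ S, ∀ q ∈ S, (p + q) / 2 ∈ S := by
    intro p hp q hq
    have h := le_trans (mul_le_mul' hp hq) (hf.mid p q)
    rw [smul_eq_mul, one_div, ← sq, inv_mul_eq_div] at h
    exact not_lt.1 fun hlt => not_lt.2 h (ENNReal.pow_lt_pow_left two_ne_zero hlt)
  show s ∈ S
  have h1 : |t| ∈ S ∩ Ici s := ⟨show f |t| ≤ f |t| from le_rfl, (le_abs_self s).trans hst⟩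
  have h2 : -|t| ∈ S ∩ Iic s :=
    ⟨show f |t| ≤ f (-|t|) by rw [hf.even], by
      simpa using (neg_le_neg hst).trans (neg_abs_le s)⟩
  have hlow := (hSc.inter isClosed_Iic).csSup_mem ⟨_, h2⟩ ⟨s, fun r hr => hr.2⟩
  have hupp := (hSc.inter isClosed_Ici).csInf_mem ⟨_, h1⟩ ⟨s, fun r hr => hr.2⟩
  set a := sSup (S ∩ Iic s)
  set b := sInf (S ∩ Ici s)
  have hm := hmid a hlow.1 b hupp.1
  have ha : a ≤ s := hlow.2
  have hb : s ≤ b := hupp.2
  rcases le_total ((a + b) / 2) s with h | h
  · have h3 : (a + b) / 2 ≤ a := le_csSup ⟨s, fun r hr => hr.2⟩ ⟨hm, h⟩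
    rw [show s = a by linarith]
    exact hlow.1
  · have h3 : b ≤ (a + b) / 2 := csInf_le ⟨s, fun r hr => hr.2⟩ ⟨hm, h⟩
    rw [show s = b by linarith]
    exact hupp.1

/-- The Gaussian weight. -/
def gw (t : ℝ) : ℝ≥0∞ := ENNReal.ofReal (Real.exp (-(Real.pi * t ^ 2)))

/-- The weight of the unit interval. -/
def bx (t : ℝ) : ℝ≥0∞ := (Icc (-(1 / 2) : ℝ) (1 / 2)).indicator 1 t

theorem gw_weight : Weight gw := by
  have hm : Measurable gw := ENNReal.measurable_ofReal.comp (by fun_prop)
  refine ⟨hm, fun x => ?_, fun x => by simp [gw], fun x y => ?_, ?_⟩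
  · exact ENNReal.ofReal_le_one.2 (Real.exp_le_one_iff.2 (by nlinarith [Real.pi_pos, sq_nonneg x]))
  · rw [gw, gw, gw, ← ENNReal.ofReal_mul (Real.exp_nonneg _),
      ← ENNReal.ofReal_pow (Real.exp_nonneg _), ← Real.exp_add, ← Real.exp_nat_mul]
    refine ENNReal.ofReal_le_ofReal (Real.exp_le_exp.2 ?_)
    push_cast
    nlinarith [mul_nonneg Real.pi_pos.le (sq_nonneg (x - y))]
  · have h := integral_gaussian Real.pi
    rw [div_self Real.pi_pos.ne', Real.sqrt_one] at h
    simp only [gw]
    rw [← ofReal_integral_eq_lintegral_ofReal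
      (by simpa [neg_mul] using integrable_exp_neg_mul_sq Real.pi_pos)
      (Eventually.of_forall fun x => (Real.exp_pos _).le)]
    simp only [neg_mul] at h
    rw [h, ENNReal.ofReal_one]

theorem bx_weight : Weight bx := by
  refine ⟨measurable_one.indicator measurableSet_Icc, fun x => indicator_le_self' (by simp) x,
    fun x => ?_, fun x y => ?_, ?_⟩
  · have h : -x ∈ Icc (-(1 / 2) : ℝ) (1 / 2) ↔ x ∈ Icc (-(1 / 2) : ℝ) (1 / 2) := by
      simp only [mem_Icc]
      constructor <;> rintro ⟨h1, h2⟩ <;> constructor <;> linarith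
    by_cases hx : x ∈ Icc (-(1 / 2) : ℝ) (1 / 2)
    · rw [bx, bx, indicator_of_mem (h.2 hx), indicator_of_mem hx]
      rfl
    · rw [bx, bx, indicator_of_notMem (mt h.1 hx), indicator_of_notMem hx]
  · by_cases hx : x ∈ Icc (-(1 / 2) : ℝ) (1 / 2)
    · by_cases hy : y ∈ Icc (-(1 / 2) : ℝ) (1 / 2)
      · have hz : (x + y) / 2 ∈ Icc (-(1 / 2) : ℝ) (1 / 2) :=
          ⟨by linarith [hx.1, hy.1], by linarith [hx.2, hy.2]⟩
        rw [bx, bx, bx, indicator_of_mem hx, indicator_of_mem hy, indicator_of_mem hz]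
        simp
      · rw [bx, bx, indicator_of_notMem hy, mul_zero]
        exact zero_le
    · rw [bx, indicator_of_notMem hx, zero_mul]
      exact zero_le
  · simp [bx, lintegral_indicator measurableSet_Icc]
    norm_num

/-- On the line the unit interval is more peaked than the Gaussian. -/
theorem Good.gauss_le {f : ℝ → ℝ≥0∞} (hf : Good f) :
    ∫⁻ t, gw t * f t ≤ ∫⁻ t, bx t * f t := by
  set I : Set ℝ := Icc (-(1 / 2)) (1 / 2) with hI
  have hIm : MeasurableSet I := measurableSet_Icc
  have hin : ∀ t ∈ I, f (1 / 2) ≤ f t := fun t ht => hf.anti (by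
    rw [abs_of_pos (by norm_num : (0 : ℝ) < 1 / 2), abs_le]; exact ⟨ht.1, ht.2⟩)
  have hout : ∀ t ∈ Iᶜ, f t ≤ f (1 / 2) := fun t ht => hf.anti (by
    rw [abs_of_pos (by norm_num : (0 : ℝ) < 1 / 2)]
    exact le_of_lt (not_le.1 fun h => ht (abs_le.1 h)))
  have hg := gw_weight.meas
  have hb : ∫⁻ t, bx t * f t = ∫⁻ t in I, f t := by
    rw [← lintegral_indicator hIm]
    refine lintegral_congr fun t => ?_
    by_cases ht : t ∈ I
    · show I.indicator 1 t * f t = _
      rw [indicator_of_mem ht, indicator_of_mem ht, Pi.one_apply, one_mul]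
    · show I.indicator 1 t * f t = _
      rw [indicator_of_notMem ht, indicator_of_notMem ht, zero_mul]
  have hlow : ∫⁻ t in Iᶜ, gw t = ∫⁻ t in I, (1 - gw t) := by
    have h1 : (∫⁻ t in I, gw t) + ∫⁻ t in Iᶜ, gw t = 1 := by
      rw [lintegral_add_compl _ hIm, gw_weight.mass]
    have h2 : (∫⁻ t in I, gw t) + ∫⁻ t in I, (1 - gw t) = 1 := by
      rw [← lintegral_add_left hg]
      simp only [add_tsub_cancel_of_le (gw_weight.le_one _), setLIntegral_const, one_mul, I,
        Real.volume_Icc]
      norm_num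
    exact (ENNReal.add_right_inj (ne_top_of_le_ne_top ENNReal.one_ne_top
      (h1 ▸ le_self_add))).1 (h1.trans h2.symm)
  calc ∫⁻ t, gw t * f t = (∫⁻ t in I, gw t * f t) + ∫⁻ t in Iᶜ, gw t * f t :=
        (lintegral_add_compl _ hIm).symm
    _ ≤ (∫⁻ t in I, gw t * f t) + ∫⁻ t in Iᶜ, gw t * f (1 / 2) :=
        add_le_add le_rfl (setLIntegral_mono' hIm.compl fun t ht => mul_le_mul' le_rfl (hout t ht))
    _ = (∫⁻ t in I, gw t * f t) + ∫⁻ t in I, (1 - gw t) * f (1 / 2) := by
        rw [lintegral_mul_const _ hg,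
          lintegral_mul_const (f := fun t => 1 - gw t) _ (measurable_const.sub hg), hlow]
    _ ≤ (∫⁻ t in I, gw t * f t) + ∫⁻ t in I, (1 - gw t) * f t :=
        add_le_add le_rfl (setLIntegral_mono' hIm fun t ht => mul_le_mul' le_rfl (hin t ht))
    _ = ∫⁻ t in I, f t := by
        rw [← lintegral_add_left (hg.fun_mul hf.meas)]
        refine lintegral_congr fun t => ?_
        rw [← add_mul, add_tsub_cancel_of_le (gw_weight.le_one _), one_mul]
    _ = ∫⁻ t, bx t * f t := hb.symm

theorem swap {w v : ℝ → ℝ≥0∞} (hw : Weight w) (hv : Weight v) {n : ℕ}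
    {F : (Fin (n + 1) → ℝ) → ℝ≥0∞} (hF : Measurable F) :
    ∫⁻ s, v s * (K w n fun z => F (Fin.cons s z))
      = K w n fun z => ∫⁻ s, v s * F (Fin.cons s z) := by
  have hp := measurable_prod_w hw n
  have hs : ∀ s, Measurable fun z : Fin n → ℝ => F (Fin.cons s z) :=
    fun s => hF.comp (measurable_cons.comp (measurable_const.prodMk measurable_id))
  have hz : ∀ z : Fin n → ℝ, Measurable fun s => F (Fin.cons s z) :=
    fun z => hF.comp (measurable_cons.comp (measurable_id.prodMk measurable_const))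
  calc ∫⁻ s, v s * (K w n fun z => F (Fin.cons s z))
      = ∫⁻ s, ∫⁻ z, v s * ((∏ i, w (z i)) * F (Fin.cons s z)) :=
        lintegral_congr fun s => (lintegral_const_mul _ (hp.fun_mul (hs s))).symm
    _ = ∫⁻ z, ∫⁻ s, v s * ((∏ i, w (z i)) * F (Fin.cons s z)) :=
        lintegral_lintegral_swap ((hv.meas.comp measurable_fst).fun_mul
          ((hp.comp measurable_snd).fun_mul (hF.comp measurable_cons))).aemeasurable
    _ = _ := lintegral_congr fun z => by
        rw [← lintegral_const_mul _ (hv.meas.fun_mul (hz z))]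
        exact lintegral_congr fun s => mul_left_comm _ _ _

/-- Exchanging the Gaussian for the cube, coordinate by coordinate. -/
theorem K_gauss_le : ∀ (n : ℕ) (F : (Fin n → ℝ) → ℝ≥0∞), Good F → K gw n F ≤ K bx n F := by
  intro n
  induction n with
  | zero => intro F _; exact le_of_eq (lintegral_congr fun z => by simp)
  | succ n ih =>
    intro F hF
    rw [K_succ gw_weight hF.meas]
    refine (good_fst gw_weight hF).gauss_le.trans ?_
    rw [swap gw_weight bx_weight hF.meas]
    refine (ih _ (good_snd bx_weight hF)).trans (le_of_eq ?_)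
    rw [← swap bx_weight bx_weight hF.meas, ← K_succ bx_weight hF.meas]

theorem good_indicator {n : ℕ} {A : Set (Fin n → ℝ)} (hA : IsClosed A) (hc : Convex ℝ A)
    (hs : ∀ x ∈ A, -x ∈ A) : Good (A.indicator (1 : (Fin n → ℝ) → ℝ≥0∞)) := by
  refine ⟨measurable_one.indicator hA.measurableSet, indicator_le_self' (by simp),
    fun x => ?_, fun x y => ?_, fun x a hx => ?_⟩
  · by_cases h : x ∈ A
    · simp [indicator_of_mem h, indicator_of_mem (hs x h)]
    · have h' : -x ∉ A := fun h' => h (neg_neg x ▸ hs _ h')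
      simp [indicator_of_notMem h, indicator_of_notMem h']
  · by_cases h : x ∈ A
    · by_cases h' : y ∈ A
      · have hm : (1 / 2 : ℝ) • (x + y) ∈ A := by
          rw [smul_add]
          exact hc h h' (by norm_num) (by norm_num) (by norm_num)
        rw [indicator_of_mem h, indicator_of_mem h', indicator_of_mem hm]
        simp
      · simp [indicator_of_notMem h']
    · simp [indicator_of_notMem h]
  · by_cases h : a ∈ A
    · rw [indicator_of_mem h]
      exact (limsup_le_limsup (Eventually.of_forall fun k =>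
        indicator_le_self' (by simp) (x k))).trans (limsup_const (1 : ℝ≥0∞)).le
    · have he : (fun k => A.indicator (1 : (Fin n → ℝ) → ℝ≥0∞) (x k)) =ᶠ[atTop] fun _ => 0 := by
        filter_upwards [hx (hA.isOpen_compl.mem_nhds h)] with k hk
        exact indicator_of_notMem hk _
      rw [limsup_congr he, limsup_const]
      exact zero_le

end Vale.Agent.P254.FewSlabs.Peak

namespace Vale.Agent.P254.FewSlabs

open Peak in
/-- The peakedness block of the pins. -/
theorem peaked : Peaked := by
  intro N A hA hc hs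
  have hL : K gw N (A.indicator 1)
      = ∫⁻ x in A, ENNReal.ofReal (Real.exp (-(Real.pi * ∑ i, x i ^ 2))) := by
    rw [← lintegral_indicator hA.measurableSet, K]
    refine lintegral_congr fun z => ?_
    by_cases h : z ∈ A
    · rw [indicator_of_mem h, indicator_of_mem h, Pi.one_apply, mul_one]
      simp only [gw]
      rw [← ENNReal.ofReal_prod_of_nonneg fun i _ => Real.exp_nonneg _, ← Real.exp_sum,
        Finset.mul_sum, Finset.sum_neg_distrib]
    · simp [indicator_of_notMem h]
  have hR : K bx N (A.indicator 1) = volume (A ∩ cube N) := by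
    have hcm : MeasurableSet (cube N) := measurableSet_Icc
    rw [← lintegral_indicator_one (hA.measurableSet.inter hcm), K]
    refine lintegral_congr fun z => ?_
    by_cases h : z ∈ A
    · by_cases hz : z ∈ cube N
      · have hb : ∀ i, bx (z i) = 1 := fun i =>
          indicator_of_mem (show z i ∈ Icc (-(1 / 2) : ℝ) (1 / 2) from ⟨hz.1 i, hz.2 i⟩) _
        simp [hb, indicator_of_mem h, indicator_of_mem (show z ∈ A ∩ cube N from ⟨h, hz⟩)]
      · obtain ⟨i, hi⟩ : ∃ i, z i ∉ Icc (-(1 / 2) : ℝ) (1 / 2) := by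
          by_contra hall
          push Not at hall
          exact hz ⟨fun i => (hall i).1, fun i => (hall i).2⟩
        rw [Finset.prod_eq_zero (Finset.mem_univ i) (indicator_of_notMem hi _), zero_mul,
          indicator_of_notMem fun h' => hz h'.2]
    · simp [indicator_of_notMem h, indicator_of_notMem (fun h' => h h'.1 : z ∉ A ∩ cube N)]
  rw [← hL, ← hR]
  exact K_gauss_le N _ (good_indicator hA hc hs)

end Vale.Agent.P254.FewSlabs
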